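import Vale.Agent.P257.V.Spec
import Vale.Agent.P257.L.V3van

/-! The algebraic facts used for `V(1), V(2), V(3)`. -/

namespace Vale.Agent.P257.V

open MvPolynomial Finset Vale.Agent.P257.S Vale.Agent.P257.Q

variable {p : ℕ} [hp : Fact p.Prime] {R : Type} [CommRing R] {B : S.BPBP p (MvPolynomial ℕ R)}

theorem vfacts (hp11 : 11 ≤ p) (hR : S.IsZp p R) (hB : B.v = S.gen (p : R)) : VFacts p B := by
  refine ⟨fun m hm1 hm M D x hx hdd k hk => ?_, fun m hm1 hm M D x hx hdd j hj A' hA' B' hB' k hk => ?_⟩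
  · exact P257L.van_perm hp11 hR hB hm1 hm hx hdd hk
  · obtain ⟨m, rfl⟩ := Nat.exists_eq_add_of_le' hm1
    exact P257L.van_prod hp11 hR hB (by omega) (by omega) hx hdd hA' hB' hk

end Vale.Agent.P257.V
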