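import Vale.Agent.P257.V.Top

set_option linter.all false

/-! Consequences of the axioms of the Adams-Novikov spectral sequence. -/

namespace Vale.Agent.P257.V

open CategoryTheory Category Limits Pretriangulated MonoidalCategory Finset MvPolynomial
  TensorProduct Vale.Agent.P257.S Vale.Agent.P257.Q Vale.Agent.P257.K

universe v' u

section

variable {p : ℕ} {A : Type} [CommRing A] {B : S.BPBP p A} {T : Type u} [Category.{v'} T]
  [Preadditive T] [HasShift T ℤ] [MonoidalCategory T] {h : T ⥤ ModuleCat.{0} A}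
  {C : ∀ X, Comod B (h.obj X)} {κ : ∀ X Y, h.obj X →ₗ[A] h.obj Y →ₗ[A] h.obj (X ⊗ Y)}
  {F : T → Prop} {E : ∀ X : T, ℕ → ℕ → ℤ → AddSubgroup (W A ⊗[A] h.obj X × W A ⊗[A] h.obj X)}

theorem hdd_of (hE : IsANSS h C κ F E) (X : T) (s : ℕ) (t : ℤ) (z : W A ⊗[A] h.obj X)
    (hz : IsCobdry (C X) s t z) : IsCocycle (C X) s t z :=
  (hE.cocycle X 2 s t z 0 (hE.cobdry X 2 s t z le_rfl hz)).1

/-- Coboundaries are in the indeterminacy of `d_r`. -/
theorem bd_mem (hE : IsANSS h C κ F E) {X : T} {r : ℕ} (hr : 2 ≤ r) :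
    ∀ {s s' : ℕ} {t t' : ℤ} {y : W A ⊗[A] h.obj X}, s' = s + r →
      t' = t + r - 1 → IsCobdry (C X) s' t' y → (0, y) ∈ E X r s t := by
  induction r, hr using Nat.le_induction with
  | base =>
    intro s s' t t' y hs ht hy
    rw [hE.second]
    have : t + 1 = t' := by rw [ht]; push_cast; ring
    rw [this, ← hs]; exact hy
  | succ r hr ih =>
    intro s s' t t' y hs ht hy
    rw [hE.image _ _ _ _ _ hr]
    exact ⟨0, ih (s := s + 1) (t := t + 1) (by omega) (by push_cast at ht ⊢; omega) hy⟩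

/-- A class of filtration zero whose targets vanish survives. -/
theorem survives (hE : IsANSS h C κ F E) {X : T} {t : ℤ} {x : W A ⊗[A] h.obj X}
    (hx : IsCocycle (C X) 0 t x) (hv : ∀ r : ℕ, 2 ≤ r → VanL (C X) r (t + r - 1)) :
    ∀ r, 2 ≤ r → (x, 0) ∈ E X r 0 t := by
  have key : ∀ r, 2 ≤ r → ∀ y, (x, y) ∈ E X r 0 t → (x, 0) ∈ E X r 0 t := by
    intro r hr y hy
    have h1 := (hE.cocycle _ _ _ _ _ _ hy).2
    rw [zero_add] at h1
    have h2 := bd_mem hE hr (s := 0) (t := t) (s' := r) (by omega) rfl (hv r hr y h1)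
    simpa using sub_mem hy h2
  intro r hr
  induction r, hr using Nat.le_induction with
  | base =>
    obtain ⟨y, hy⟩ := hE.total _ _ _ _ hx
    exact key 2 le_rfl y hy
  | succ r hr ih =>
    obtain ⟨y, hy⟩ := (hE.kernel _ _ _ _ _ hr).1 ih
    exact key (r + 1) (by omega) y hy

end

section

variable {p : ℕ} [hp : Fact p.Prime] {R : Type} [CommRing R] {B : S.BPBP p (MvPolynomial ℕ R)}
  {T : Type u} [Category.{v'} T] [HasZeroObject T] [Preadditive T]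
  [HasShift T ℤ] [∀ n : ℤ, (shiftFunctor T n).Additive] [Pretriangulated T] [IsTriangulated T]
  [HasCountableCoproducts T] [MonoidalCategory T]
  {h : T ⥤ ModuleCat.{0} (MvPolynomial ℕ R)} [h.IsHomological]
  [PreservesColimitsOfShape (Discrete ℕ) h] {C : ∀ X, Comod B (h.obj X)}
  {κ : ∀ X Y, h.obj X →ₗ[MvPolynomial ℕ R] h.obj Y →ₗ[MvPolynomial ℕ R] h.obj (X ⊗ Y)}
  {F : T → Prop}
  {E : ∀ X : T, ℕ → ℕ → ℤ → AddSubgroup (W (MvPolynomial ℕ R) ⊗[MvPolynomial ℕ R] h.obj X ×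
      W (MvPolynomial ℕ R) ⊗[MvPolynomial ℕ R] h.obj X)}

omit [HasZeroObject T] [Preadditive T] [HasShift T ℤ] [∀ n : ℤ, (shiftFunctor T n).Additive]
  [Pretriangulated T] [IsTriangulated T] [HasCountableCoproducts T] [MonoidalCategory T]
  [h.IsHomological] [PreservesColimitsOfShape (Discrete ℕ) h] in
theorem sparse (hR : S.IsZp p R) (hB : B.v = gen (p : R)) (m : ℕ) (W : T) (x : h.obj W) (s : ℕ)
    (t : ℤ) (hx : IsCyclic (C W) m 0 x) (ht : ¬ ((2 * (p - 1) : ℕ) : ℤ) ∣ t) :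
    VanL (C W) s t := fun z hz =>
  Or.inl (cochain_sparse hp.out.one_lt.le hR hB hx.1 hx.2.2.1 ht hz.1)

theorem hurewicz_zero (hE : IsANSS h C κ F E) (m : ℕ) (W : T) (x : h.obj W) (t : ℤ) (hF : F W)
    (hx : IsCyclic (C W) m 0 x) (hv : ∀ s : ℕ, 1 ≤ s → VanL (C W) s (t + s))
    (f : (𝟙_ T)⟦t⟧ ⟶ W) (hf : ∀ y, (h.map f).hom y = 0) : f = 0 := by
  refine hE.conv W t f hF ?_ fun s x hs => hv s hs x
  ext y
  exact hf y

theorem hom_zero (hR : S.IsZp p R) (hB : B.v = gen (p : R)) (hh : IsBPHomology (𝟙_ T) h C)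
    (hE : IsANSS h C κ F E) (m : ℕ) (W : T) (x : h.obj W) (t : ℤ) (hF : F W)
    (hx : IsCyclic (C W) m 0 x) (hv : ∀ s : ℕ, 1 ≤ s → VanL (C W) s (t + s))
    (ht : ¬ ((2 * (p - 1) : ℕ) : ℤ) ∣ t) (f : (𝟙_ T)⟦t⟧ ⟶ W) : f = 0 := by
  refine hurewicz_zero hE m W x t hF hx hv f ?_
  obtain ⟨y, hy⟩ := exists_gen_shift hR hB hh t
  intro z
  obtain ⟨a, rfl⟩ := hy.2.2.1 z
  have h1 : (h.map f).hom y ∈ (C W).deg t := by
    have := (hh.hom _ _ f).1 _ _ hy.1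
    rwa [add_zero] at this
  have h2 : (1 : Q.W (MvPolynomial ℕ R)) ⊗ₜ[MvPolynomial ℕ R] (h.map f).hom y ∈
      cochain (C W) 0 t :=
    AddSubgroup.subset_closure ⟨0, t, _, by simp, h1, by simp, rfl⟩
  have h3 := cochain_sparse hp.out.one_lt.le hR hB hx.1 hx.2.2.1 ht h2
  have h4 : (h.map f).hom y = 0 := one_tmul_inj (h3.trans (tmul_zero _ _).symm)
  rw [map_smul, h4, smul_zero]

theorem exists_map (hR : S.IsZp p R) (hB : B.v = gen (p : R)) (hE : IsANSS h C κ F E) (m : ℕ)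
    (U : T) (x : h.obj U) (hF : F U) (hx : IsCyclic (C U) m 0 x)
    (hv : ∀ r : ℕ, 2 ≤ r → VanL (C U) r (vdeg p m + r - 1)) :
    ∃ (f : (𝟙_ T)⟦vdeg p m⟧ ⟶ U) (y : h.obj ((𝟙_ T)⟦vdeg p m⟧)),
      IsCyclic (C ((𝟙_ T)⟦vdeg p m⟧)) 0 (vdeg p m) y ∧ (h.map f).hom y = B.v m • x := by
  have hc := cocycle_v_self hB hR.reg hx
  obtain ⟨f, y, hy, hfy⟩ := hE.edge U (vdeg p m) _ hF hc (survives hE hc hv)
  exact ⟨f, y, hy, (one_tmul_inj hfy).symm⟩

end

end Vale.Agent.P257.V
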