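import Vale.Agent.P257.V.Top

/-! The Moore object `V(0)`, and the two uses of the spectral sequence in low degrees. -/

namespace Vale.Agent.P257.V

open CategoryTheory Category Limits Pretriangulated MonoidalCategory Finset MvPolynomial
  TensorProduct Vale.Agent.P257.S Vale.Agent.P257.Q Vale.Agent.P257.K

universe v' u

section Moore

variable {T : Type u} [Category.{v'} T] [HasZeroObject T] [Preadditive T]
  [HasShift T ℤ] [∀ n : ℤ, (shiftFunctor T n).Additive] [Pretriangulated T]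

/-- `p ^ 2` kills the cofibre of a map which is `p` up to isomorphism. -/
theorem sq_zero {p : ℕ} {S Z U : T} (e : Z ≅ S) {i : S ⟶ U} {k : U ⟶ Z⟦(1 : ℤ)⟧}
    (hT : Triangle.mk (e.hom ≫ (p • 𝟙 S)) i k ∈ distTriang T) : (p * p) • 𝟙 U = 0 := by
  have h1 := tri_comp₁₂ hT
  have h2 : (p • 𝟙 S) ≫ i = 0 := by
    rw [assoc] at h1
    rw [← cancel_epi e.hom, h1, comp_zero]
  have h3 : i ≫ (p • 𝟙 U) = 0 := by
    rw [Preadditive.comp_nsmul, comp_id]
    rwa [Preadditive.nsmul_comp, id_comp] at h2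
  obtain ⟨c, hc⟩ := tri_from₃ hT _ h3
  have h4 := tri_comp₃₁ hT
  have h5 : p • k = 0 := by
    rw [Functor.map_comp, ← assoc, Functor.map_nsmul, CategoryTheory.Functor.map_id,
      Preadditive.comp_nsmul, comp_id, ← Preadditive.nsmul_comp] at h4
    rw [← cancel_mono (e.hom⟦(1 : ℤ)⟧'), h4, zero_comp]
  rw [mul_smul, hc, ← Preadditive.nsmul_comp, h5, zero_comp]

theorem isPLocal_of_sq_zero {p : ℕ} {U : T} (h : (p * p) • 𝟙 U = 0) :
    Vale.Agent.P257.IsPLocalObj p U := by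
  intro m hm
  have h1 : m.Coprime (p * p) := Nat.Coprime.mul_right hm hm
  have h2 : IsCoprime (m : ℤ) ((p * p : ℕ) : ℤ) := Nat.isCoprime_iff_coprime.2 h1
  obtain ⟨a, b, hab⟩ := h2
  have h3 : a • (m • 𝟙 U) = 𝟙 U := by
    have h4 : (a * m + b * ((p * p : ℕ) : ℤ)) • 𝟙 U = 𝟙 U := by rw [hab, one_smul]
    rw [add_smul, mul_smul, mul_smul, natCast_zsmul, natCast_zsmul, h, smul_zero, add_zero] at h4
    exact h4
  refine ⟨a • 𝟙 U, ?_, ?_⟩
  · rw [Preadditive.comp_zsmul, comp_id, h3]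
  · rw [Preadditive.zsmul_comp, id_comp, h3]

end Moore

section Setting

variable {p : ℕ} [hp : Fact p.Prime] {R : Type} [CommRing R] {B : S.BPBP p (MvPolynomial ℕ R)}
  {T : Type u} [Category.{v'} T] [HasZeroObject T] [Preadditive T]
  [HasShift T ℤ] [∀ n : ℤ, (shiftFunctor T n).Additive] [Pretriangulated T] [IsTriangulated T]
  [HasCountableCoproducts T] [MonoidalCategory T]
  {h : T ⥤ ModuleCat.{0} (MvPolynomial ℕ R)} [h.IsHomological]
  [PreservesColimitsOfShape (Discrete ℕ) h] {C : ∀ X, Comod B (h.obj X)}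
  {κ : ∀ X Y, h.obj X →ₗ[MvPolynomial ℕ R] h.obj Y →ₗ[MvPolynomial ℕ R] h.obj (X ⊗ Y)}
  {g : h.obj (𝟙_ T)}

/-- `V(0)`. -/
theorem zero_step (hR : S.IsZp p R) (hB : B.v = gen (p : R)) (hh : IsBPHomology (𝟙_ T) h C)
    (hg : IsCyclic (C (𝟙_ T)) 0 0 g) :
    ∃ (U : T) (f : (𝟙_ T)⟦vdeg p 0⟧ ⟶ 𝟙_ T) (i : 𝟙_ T ⟶ U)
      (k : U ⟶ (𝟙_ T)⟦vdeg p 0⟧⟦(1 : ℤ)⟧), Triangle.mk f i k ∈ distTriang T ∧
      (∀ z, ∃ y, (h.map f).hom z = B.v 0 • y) ∧ IsFin p U ∧
      IsCyclic (C U) 1 0 ((h.map i).hom g) := by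
  have hv0 : vdeg p 0 = 0 := vdeg_zero p
  let e : (𝟙_ T)⟦vdeg p 0⟧ ≅ 𝟙_ T := (shiftFunctorZero' T (vdeg p 0) hv0).app (𝟙_ T)
  have hhadd : h.Additive := inferInstance
  have hBv : B.v 0 = (p : MvPolynomial ℕ R) := by
    rw [hB, gen_zero, map_natCast]
  have hmap : ∀ y, (h.map (e.hom ≫ (p • 𝟙 (𝟙_ T)))).hom y = B.v 0 • (h.map e.hom).hom y := by
    intro y
    rw [Preadditive.comp_nsmul, comp_id, Functor.map_nsmul, hBv, Nat.cast_smul_eq_nsmul]
    rfl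
  obtain ⟨U, i, k, hT⟩ := Pretriangulated.distinguished_cocone_triangle
    (e.hom ≫ (p • 𝟙 (𝟙_ T)))
  refine ⟨U, _, i, k, hT, fun z => ⟨_, hmap z⟩, ?_, ?_⟩
  · rw [isFin_iff, isFinitePLocal_iff']
    have hcw : Vale.Agent.P257.IsFiniteCW (𝟙_ T) U :=
      IsFiniteCW.cell' _ hT (vdeg p 0) (Iso.refl _) (isFiniteCW_sphere (𝟙_ T))
    have hloc : Vale.Agent.P257.IsPLocalization p (𝟙 U) :=
      ⟨isPLocal_of_sq_zero (sq_zero e hT), fun Z _ => by
        simp only [id_comp]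
        exact Function.bijective_id⟩
    exact hloc.isFinitePLocal hcw
  · have hu : IsCyclic (C ((𝟙_ T)⟦vdeg p 0⟧)) 0 0 ((h.map e.inv).hom g) := by
      obtain ⟨L⟩ := exists_LocalSphere hR hh
      rw [← cyc_iff hR hB hh L] at hg ⊢
      exact hg.iso e.symm
    refine cyclic_cone hR hB hh hT hg hu ?_
    rw [hmap]
    congr 1
    rw [← ModuleCat.comp_apply, ← Functor.map_comp, e.inv_hom_id, CategoryTheory.Functor.map_id]
    rfl

omit [h.IsHomological] [PreservesColimitsOfShape (Discrete ℕ) h] [HasCountableCoproducts T]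
  [IsTriangulated T] in
/-- Sparseness. -/
theorem van_sparse {M : ModuleCat.{0} (MvPolynomial ℕ R)} {D : Comod B M} {x : M} {m : ℕ}
    (hR : S.IsZp p R) (hB : B.v = gen (p : R)) (hx : IsCyclic D m 0 x) {t : ℤ}
    (ht : ¬ (2 * (p - 1 : ℤ)) ∣ t) (s : ℕ) : VanL D s t := by
  intro z hz
  have hp1 : 1 ≤ p := hp.out.one_lt.le
  have e : ((2 * (p - 1) : ℕ) : ℤ) = 2 * (p - 1 : ℤ) := by push_cast [Nat.cast_sub hp1]; ring
  have := cochain_sparse hp1 hR hB hx.1 hx.2.2.1 (by rwa [e]) hz.1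
  rw [this]
  exact Or.inl rfl

variable {E : ∀ X : T, ℕ → ℕ → ℤ → AddSubgroup (W (MvPolynomial ℕ R) ⊗[MvPolynomial ℕ R] h.obj X ×
      W (MvPolynomial ℕ R) ⊗[MvPolynomial ℕ R] h.obj X)} {F : T → Prop} {W' : T} {m : ℕ}
  {x : h.obj W'} {t : ℤ}

omit [h.IsHomological] [PreservesColimitsOfShape (Discrete ℕ) h] [HasCountableCoproducts T]
  [IsTriangulated T] [HasZeroObject T] [∀ n : ℤ, (shiftFunctor T n).Additive]
  [Pretriangulated T] hp in
/-- The Hurewicz theorem. -/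
theorem hur (hE : IsANSS h C κ F E) (hF : F W')
    (hv : ∀ s : ℕ, 1 ≤ s → VanL (C W') s (t + s)) (f : (𝟙_ T)⟦t⟧ ⟶ W')
    (hf : ∀ y, (h.map f).hom y = 0) : f = 0 := by
  refine hE.conv W' t f hF ?_ fun s z hs hz => hv s hs z hz
  ext y
  exact hf y

omit [h.IsHomological] [PreservesColimitsOfShape (Discrete ℕ) h] [HasCountableCoproducts T]
  [IsTriangulated T] [HasZeroObject T] [∀ n : ℤ, (shiftFunctor T n).Additive]
  [Pretriangulated T] in
/-- In degrees not divisible by `2 (p - 1)` there are no elements of filtration `0`. -/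
theorem hur' (hR : S.IsZp p R) (hB : B.v = gen (p : R))
    (hgen : ∃ y, IsCyclic (C ((𝟙_ T)⟦t⟧)) 0 t y)
    (hh : ∀ X Y f, IsHom (C X) (C Y) 0 (h.map f)) (hE : IsANSS h C κ F E) (hF : F W')
    (hx : IsCyclic (C W') m 0 x) (ht : ¬ (2 * (p - 1 : ℤ)) ∣ t)
    (hv : ∀ s : ℕ, 1 ≤ s → VanL (C W') s (t + s)) (f : (𝟙_ T)⟦t⟧ ⟶ W') : f = 0 := by
  refine hur hE hF hv f fun y => ?_
  obtain ⟨u, hu⟩ := hgen
  obtain ⟨a, rfl⟩ := hu.2.2.1 y
  have h1 := (hh _ _ f).1 _ _ hu.1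
  rw [add_zero] at h1
  obtain ⟨b, hb, hb'⟩ := exists_homog_comod hR hB hx.1 hx.2.2.1 h1
  have hp1 : 1 ≤ p := hp.out.one_lt.le
  have e : ((2 * (p - 1) : ℕ) : ℤ) = 2 * (p - 1 : ℤ) := by push_cast [Nat.cast_sub hp1]; ring
  have hb0 : b = 0 := by
    by_contra hne
    obtain ⟨d, hd⟩ := MvPolynomial.ne_zero_iff.1 hne
    have h1 : Finsupp.weight (S.wt p) d = t := hb hd
    apply ht
    rw [← h1, Finsupp.weight_apply, ← e]
    refine Finset.dvd_sum fun i _ => ?_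
    change _ ∣ d i • S.wt p i
    rw [nsmul_eq_mul]
    exact Dvd.dvd.mul_left (dvd_vdeg p _ hp1) _
  rw [map_smul, hb', hb0, zero_smul, smul_zero]

omit [h.IsHomological] [PreservesColimitsOfShape (Discrete ℕ) h] [HasCountableCoproducts T]
  [IsTriangulated T] [HasZeroObject T] [∀ n : ℤ, (shiftFunctor T n).Additive]
  [Pretriangulated T] hp in
/-- Coboundaries are in the indeterminacy. -/
theorem cobdry_mem (hE : IsANSS h C κ F E) (X : T) {r : ℕ} (hr : 2 ≤ r) :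
    ∀ {s s' : ℕ} {t t' : ℤ} {y}, s' = s + r → t' = t + r - 1 → IsCobdry (C X) s' t' y →
      (0, y) ∈ E X r s t := by
  induction r, hr using Nat.le_induction with
  | base =>
    intro s s' t t' y hs ht hy
    rw [hE.second]
    have : t + 1 = t' := by rw [ht]; push_cast; ring
    rw [this, ← hs]; exact hy
  | succ r hr ih =>
    intro s s' t t' y hs ht hy
    rw [hE.image _ _ _ _ _ hr]
    exact ⟨0, ih (s := s + 1) (t := t + 1) (by omega) (by push_cast at ht ⊢; omega) hy⟩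

omit [h.IsHomological] [PreservesColimitsOfShape (Discrete ℕ) h] [HasCountableCoproducts T]
  [IsTriangulated T] [HasZeroObject T] [∀ n : ℤ, (shiftFunctor T n).Additive]
  [Pretriangulated T] hp in
/-- A class all of whose targets vanish is a permanent cycle. -/
theorem permanent_of_van (hE : IsANSS h C κ F E) (X : T) {z} (hz : IsCocycle (C X) 0 t z)
    (hv : ∀ r : ℕ, 2 ≤ r → VanL (C X) r (t + r - 1)) {r : ℕ} (hr : 2 ≤ r) :
    (z, 0) ∈ E X r 0 t := by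
  have key : ∀ {r : ℕ}, 2 ≤ r → ∀ y, (z, y) ∈ E X r 0 t → (z, 0) ∈ E X r 0 t := by
    intro r hr y hy
    have h1 := (hE.cocycle _ _ _ _ _ _ hy).2
    rw [zero_add] at h1
    have h2 := cobdry_mem hE X hr (s := 0) (by omega) rfl (hv r hr y h1)
    simpa using sub_mem hy h2
  induction r, hr using Nat.le_induction with
  | base =>
    obtain ⟨y, hy⟩ := hE.total X 0 t z hz
    exact key le_rfl y hy
  | succ r hr ih =>
    obtain ⟨y, hy⟩ := (hE.kernel X r 0 t z hr).1 ih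
    exact key (by omega) y hy

omit [h.IsHomological] [PreservesColimitsOfShape (Discrete ℕ) h] [HasCountableCoproducts T]
  [IsTriangulated T] in
/-- The element `v_m`. -/
theorem exist (hR : S.IsZp p R) (hB : B.v = gen (p : R)) (hE : IsANSS h C κ (IsFin p) E)
    (hF : IsFin p W') (hx : IsCyclic (C W') m 0 x)
    (hv : ∀ r : ℕ, 2 ≤ r → VanL (C W') r (vdeg p m + r - 1)) :
    ∃ (f : (𝟙_ T)⟦vdeg p m⟧ ⟶ W') (y : h.obj ((𝟙_ T)⟦vdeg p m⟧)),
      IsCyclic (C ((𝟙_ T)⟦vdeg p m⟧)) 0 (vdeg p m) y ∧ (h.map f).hom y = B.v m • x := by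
  have hz := cocycle_v_self hB hR.reg hx
  obtain ⟨f, y, hy, hfy⟩ := hE.edge W' (vdeg p m) _ hF hz fun r hr => permanent_of_van hE W' hz hv hr
  exact ⟨f, y, hy, (one_tmul_inj hfy).symm⟩

end Setting

end Vale.Agent.P257.V
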