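import Vale.Agent.P257.V.Three
import Vale.Agent.P257.V.Herm
import Vale.Agent.P257.V.Zero
import Vale.Agent.P257.V.Alg

set_option linter.all false

/-! Existence of `V(3)` with a left-unital product, `p ≥ 11`. -/

namespace Vale.Agent.P257.V

open CategoryTheory Category Limits Pretriangulated MonoidalCategory Finset MvPolynomial
  TensorProduct Vale.Agent.P257.S Vale.Agent.P257.Q Vale.Agent.P257.K

universe v' u

variable {p : ℕ} [hp : Fact p.Prime] {R : Type} [CommRing R] {B : S.BPBP p (MvPolynomial ℕ R)}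
  {T : Type u} [Category.{v'} T] [HasZeroObject T] [Preadditive T]
  [HasShift T ℤ] [∀ n : ℤ, (shiftFunctor T n).Additive] [Pretriangulated T] [IsTriangulated T]
  [HasCountableCoproducts T] [MonoidalCategory T]
  {h : T ⥤ ModuleCat.{0} (MvPolynomial ℕ R)} [h.IsHomological]
  [PreservesColimitsOfShape (Discrete ℕ) h] {C : ∀ X, Comod B (h.obj X)}
  {κ : ∀ X Y, h.obj X →ₗ[MvPolynomial ℕ R] h.obj Y →ₗ[MvPolynomial ℕ R] h.obj (X ⊗ Y)}
  {g : h.obj (𝟙_ T)}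
  {E : ∀ X : T, ℕ → ℕ → ℤ → AddSubgroup (W (MvPolynomial ℕ R) ⊗[MvPolynomial ℕ R] h.obj X ×
      W (MvPolynomial ℕ R) ⊗[MvPolynomial ℕ R] h.obj X)}

/-- `V(m-1)` with a left-unital product, for `1 ≤ m ≤ 4`. -/
theorem exists_V_product (hp11 : 11 ≤ p) (hR : S.IsZp p R) (hB : B.v = gen (p : R))
    (hh : IsBPHomology (𝟙_ T) h C) (hκ : IsProduct h C κ g) (hE : IsANSS h C κ (IsFin p) E)
    (hX : IsExactTensor T) {m : ℕ} (hm : 1 ≤ m) (hm4 : m ≤ 4) :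
    ∃ (V : T) (x : h.obj V) (η : 𝟙_ T ⟶ V) (μ : V ⊗ V ⟶ V), IsFin p V ∧ IsCyclic (C V) m 0 x ∧
      (h.map η).hom g = x ∧ (λ_ V).inv ≫ (η ⊗ₘ 𝟙 V) ≫ μ = 𝟙 V := by
  obtain ⟨U, η, μ, -, hF, hx, hμ⟩ := exists_V3 hp11 hR hB hh hκ hX (vfacts hp11 hR hB)
    (hdd_of hE) (zero_step hR hB hh hκ.gen) (sparse hR hB) (hurewicz_zero hE)
    (hom_zero hR hB hh hE) (exists_map hR hB hE) m hm hm4
  exact ⟨U, _, η, μ, hF, hx, rfl, by rwa [tensorHom_id]⟩

end Vale.Agent.P257.V
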