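import Vale.Agent.P257.Q.Eta
import Vale.Agent.P257.Q.Facts

set_option linter.all false

/-! `η (v_m) = v_m` modulo `(v_0, ..., v_(m-1))`. -/

namespace Vale.Agent.P257.V

open MvPolynomial Finset TensorProduct Vale.Agent.P257.S Vale.Agent.P257.Q Vale.Agent.P257.Q.Eta

section

variable (c : ℕ) (p : ℕ) (R : Type) [CommRing R]

/-- The substitution `v_1, ..., v_c ↦ 0`. -/
noncomputable def ps : MvPolynomial ℕ R →+* MvPolynomial ℕ R :=
  (aeval fun i => if i < c then 0 else X i : MvPolynomial ℕ R →ₐ[R] MvPolynomial ℕ R).toRingHom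

theorem ps_X_lt {i : ℕ} (h : i < c) : ps c R (X i) = 0 := by
  simp [ps, h]

theorem ps_X_ge {i : ℕ} (h : ¬ i < c) : ps c R (X i) = X i := by
  simp [ps, h]

theorem ps_C (r : R) : ps c R (C r) = C r := by
  simp [ps]

variable {c p R} {B : BPBP p (MvPolynomial ℕ R)} {τ : Type}

/-- The ideal `(p, v_1, ..., v_c)`. -/
noncomputable def Ic (c : ℕ) (B : BPBP p (MvPolynomial ℕ R)) (τ : Type) :
    Ideal (MvPolynomial τ (MvPolynomial ℕ R)) := Ideal.span {b | ∃ i < c + 1, b = C (B.v i)}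

variable (hB : B.v = gen (p : R))

include hB

theorem X_mem_Ic {i : ℕ} (h : i < c) :
    (C (X i) : MvPolynomial τ (MvPolynomial ℕ R)) ∈ Ic c B τ :=
  Ideal.subset_span ⟨i + 1, by omega, by rw [v_succ hB]⟩

theorem p_mem_Ic : (p : MvPolynomial τ (MvPolynomial ℕ R)) ∈ Ic c B τ :=
  Ideal.subset_span ⟨0, by omega, by rw [v_zero hB, map_natCast]⟩

theorem sub_ps_mem (a : MvPolynomial ℕ R) :
    (C a - C (ps c R a) : MvPolynomial τ (MvPolynomial ℕ R)) ∈ Ic c B τ := by
  induction a using MvPolynomial.induction_on with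
  | C r => rw [ps_C, sub_self]; exact zero_mem _
  | add a b ha hb =>
    rw [map_add, map_add, map_add, add_sub_add_comm]
    exact add_mem ha hb
  | mul_X a i ha =>
    have h1 : (C (X i) - C (ps c R (X i)) : MvPolynomial τ (MvPolynomial ℕ R)) ∈ Ic c B τ := by
      by_cases h : i < c
      · rw [ps_X_lt c R h, map_zero, sub_zero]
        exact X_mem_Ic hB h
      · rw [ps_X_ge c R h, sub_self]; exact zero_mem _
    have h2 : (C (a * X i) - C (ps c R (a * X i)) : MvPolynomial τ (MvPolynomial ℕ R)) =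
        C (X i) * (C a - C (ps c R a)) + C (ps c R a) * (C (X i) - C (ps c R (X i))) := by
      simp only [map_mul]; ring
    rw [h2]
    exact add_mem (Ideal.mul_mem_left _ _ ha) (Ideal.mul_mem_left _ _ h1)

theorem sub_map_ps_mem (f : MvPolynomial τ (MvPolynomial ℕ R)) :
    f - map (ps c R) f ∈ Ic c B τ := by
  induction f using MvPolynomial.induction_on with
  | C a => rw [map_C]; exact sub_ps_mem hB a
  | add a b ha hb =>
    rw [map_add, add_sub_add_comm]
    exact add_mem ha hb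
  | mul_X a i ha =>
    rw [map_mul, map_X, ← sub_mul]
    exact Ideal.mul_mem_right _ _ ha

theorem mem_Ic_of_dvd (f : MvPolynomial τ (MvPolynomial ℕ R))
    (h : (p : MvPolynomial τ (MvPolynomial ℕ R)) ∣ map (ps c R) f) : f ∈ Ic c B τ := by
  obtain ⟨g, hg⟩ := h
  have h1 := sub_map_ps_mem (c := c) hB f
  rw [hg] at h1
  have h2 := add_mem h1 (Ideal.mul_mem_right g _ (p_mem_Ic (c := c) hB (τ := τ)))
  rwa [sub_add_cancel] at h2

theorem ps_v {n : ℕ} (h0 : n ≠ 0) (h : n < c + 1) : ps c R (B.v n) = 0 := by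
  obtain ⟨m, rfl⟩ := Nat.exists_eq_succ_of_ne_zero h0
  rw [Nat.succ_eq_add_one, v_succ hB, ps_X_lt c R (by omega)]

theorem ps_l [hp : Fact p.Prime] {n : ℕ} (h0 : n ≠ 0) (h : n < c + 1) :
    ps c R (B.l n) = 0 := by
  induction n using Nat.strong_induction_on with
  | _ n ih =>
    obtain ⟨m, rfl⟩ := Nat.exists_eq_succ_of_ne_zero h0
    rw [Nat.succ_eq_add_one, B.log_succ, map_sum]
    refine sum_eq_zero fun i hi => ?_
    have hi' : i < m + 1 := mem_range.1 hi
    rw [map_mul, map_pow, ps_v hB (by omega) (by omega),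
      zero_pow (pow_ne_zero _ hp.out.ne_zero), mul_zero]

theorem ps_l_top [hp : Fact p.Prime] :
    ps c R (B.l (c + 1)) = (p : MvPolynomial ℕ R) ^ c * B.v (c + 1) := by
  have h1 : ps c R (B.v (c + 1)) = B.v (c + 1) := by rw [v_succ hB, ps_X_ge c R (by omega)]
  rw [B.log_succ, map_sum, sum_range_succ']
  rw [sum_eq_zero fun i hi => ?_]
  · simp [B.log_zero, h1]
  · have hi' : i < c := mem_range.1 hi
    rw [map_mul, map_mul, ps_l hB (by omega) (by omega), mul_zero, zero_mul]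

/-- The image of `η (l n)` modulo `v_1, ..., v_c`, for `n ≤ c`. -/
theorem ps_eta_l [hp : Fact p.Prime] {n : ℕ} (h : n < c + 1) :
    map (ps c R) (B.η (B.l n)) = (p : MvPolynomial ℕ (MvPolynomial ℕ R)) ^ n * gen 1 n := by
  rw [B.unit, map_sum, sum_range_succ', sum_eq_zero fun i hi => ?_]
  · simp [B.log_zero, map_gen_one]
  · have hi' : i < n := mem_range.1 hi
    rw [map_mul, map_C, map_mul, ps_l hB (by omega) (by omega), mul_zero, map_zero, zero_mul]

theorem ps_eta_l_top [hp : Fact p.Prime] :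
    map (ps c R) (B.η (B.l (c + 1))) =
      (p : MvPolynomial ℕ (MvPolynomial ℕ R)) ^ (c + 1) * gen 1 (c + 1) +
      (p : MvPolynomial ℕ (MvPolynomial ℕ R)) ^ c * C (B.v (c + 1)) := by
  rw [B.unit, map_sum, sum_range_succ, sum_range_succ', sum_eq_zero fun i hi => ?_]
  · simp [B.log_zero, map_gen_one, ps_l_top hB]
    simp [gen]
  · have hi' : i < c := mem_range.1 hi
    rw [map_mul, map_C, map_mul, ps_l hB (by omega) (by omega), mul_zero, map_zero, zero_mul]

omit hB in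
theorem ps_eta_rec (n : ℕ) : map (ps c R) (B.η (B.l (n + 1))) = ∑ i ∈ range (n + 1),
    (p : MvPolynomial ℕ (MvPolynomial ℕ R)) ^ (n - i) * map (ps c R) (B.η (B.l i)) *
      map (ps c R) (B.η (B.v (n + 1 - i))) ^ p ^ i := by
  rw [B.log_succ, map_sum, map_sum]
  simp only [map_mul, map_pow, map_natCast]

theorem ps_eta_sum [hp : Fact p.Prime] {n m : ℕ} (h : m ≤ n + 1) (hm : m ≤ c + 1) :
    ∑ i ∈ range m, (p : MvPolynomial ℕ (MvPolynomial ℕ R)) ^ (n - i) *
      map (ps c R) (B.η (B.l i)) * map (ps c R) (B.η (B.v (n + 1 - i))) ^ p ^ i =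
    (p : MvPolynomial ℕ (MvPolynomial ℕ R)) ^ n *
      ∑ i ∈ range m, gen 1 i * map (ps c R) (B.η (B.v (n + 1 - i))) ^ p ^ i := by
  rw [mul_sum]
  refine sum_congr rfl fun i hi => ?_
  have hi' : i < m := mem_range.1 hi
  rw [ps_eta_l hB (by omega), ← mul_assoc ((p : MvPolynomial ℕ (MvPolynomial ℕ R)) ^ (n - i)),
    ← pow_add, Nat.sub_add_cancel (by omega)]
  ring

theorem ps_eta_v [hp : Fact p.Prime] (hp0 : ∀ x : R, (p : R) * x = 0 → x = 0) {n : ℕ}
    (h : n < c) : (p : MvPolynomial ℕ (MvPolynomial ℕ R)) ∣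
      map (ps c R) (B.η (B.v (n + 1))) := by
  induction n using Nat.strong_induction_on with
  | _ n ih =>
    have h1 := ps_eta_rec (c := c) (B := B) n
    rw [ps_eta_sum hB le_rfl (by omega), ps_eta_l hB (by omega), pow_succ, mul_assoc] at h1
    have h2 := pcancel₂ hp0 n h1
    rw [sum_range_succ'] at h2
    have h3 : (p : MvPolynomial ℕ (MvPolynomial ℕ R)) ∣ ∑ i ∈ range n, gen 1 (i + 1) *
        map (ps c R) (B.η (B.v (n + 1 - (i + 1)))) ^ p ^ (i + 1) := by
      refine Finset.dvd_sum fun i hi => ?_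
      have hi' : i < n := mem_range.1 hi
      have h4 := ih (n - 1 - i) (by omega) (by omega)
      rw [show n - 1 - i + 1 = n + 1 - (i + 1) by omega] at h4
      exact Dvd.dvd.mul_left (dvd_pow h4 (pow_ne_zero _ hp.out.ne_zero)) _
    have h5 : (gen 1 0 : MvPolynomial ℕ (MvPolynomial ℕ R)) = 1 := by simp [gen]
    rw [h5, one_mul, pow_zero, pow_one, Nat.sub_zero] at h2
    exact (dvd_add_right h3).1 (by rw [← h2]; exact dvd_mul_right _ _)

theorem ps_eta_top [hp : Fact p.Prime] (hp0 : ∀ x : R, (p : R) * x = 0 → x = 0) :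
    (p : MvPolynomial ℕ (MvPolynomial ℕ R)) ∣
      map (ps c R) (B.η (B.v (c + 1))) - C (B.v (c + 1)) := by
  have h1 := ps_eta_rec (c := c) (B := B) c
  rw [ps_eta_sum hB le_rfl (by omega), ps_eta_l_top hB] at h1
  have h2 : (p : MvPolynomial ℕ (MvPolynomial ℕ R)) ^ c *
      ((p : MvPolynomial ℕ (MvPolynomial ℕ R)) * gen 1 (c + 1) + C (B.v (c + 1))) =
      (p : MvPolynomial ℕ (MvPolynomial ℕ R)) ^ c *
      ∑ i ∈ range (c + 1), gen 1 i * map (ps c R) (B.η (B.v (c + 1 - i))) ^ p ^ i := by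
    rw [← h1]; ring
  have h3 := pcancel₂ hp0 c h2
  rw [sum_range_succ'] at h3
  have h4 : (p : MvPolynomial ℕ (MvPolynomial ℕ R)) ∣ ∑ i ∈ range c, gen 1 (i + 1) *
      map (ps c R) (B.η (B.v (c + 1 - (i + 1)))) ^ p ^ (i + 1) := by
    refine Finset.dvd_sum fun i hi => ?_
    have hi' : i < c := mem_range.1 hi
    have h5 := ps_eta_v hB hp0 (c := c) (n := c - 1 - i) (by omega)
    rw [show c - 1 - i + 1 = c + 1 - (i + 1) by omega] at h5
    exact Dvd.dvd.mul_left (dvd_pow h5 (pow_ne_zero _ hp.out.ne_zero)) _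
  have h5 : (gen 1 0 : MvPolynomial ℕ (MvPolynomial ℕ R)) = 1 := by simp [gen]
  rw [h5, one_mul, pow_zero, pow_one, Nat.sub_zero] at h3
  have h6 : map (ps c R) (B.η (B.v (c + 1))) - C (B.v (c + 1)) =
      (p : MvPolynomial ℕ (MvPolynomial ℕ R)) * gen 1 (c + 1) - ∑ i ∈ range c, gen 1 (i + 1) *
      map (ps c R) (B.η (B.v (c + 1 - (i + 1)))) ^ p ^ (i + 1) := by
    linear_combination -h3
  rw [h6]
  exact dvd_sub (dvd_mul_right _ _) h4

/-- `v_m` is invariant modulo `(v_0, ..., v_(m-1))`. -/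
theorem eta_v_self [hp : Fact p.Prime] (hp0 : ∀ x : R, (p : R) * x = 0 → x = 0) (m : ℕ) :
    B.η (B.v m) - C (B.v m) ∈
      Ideal.span {b : MvPolynomial ℕ (MvPolynomial ℕ R) | ∃ i < m, b = C (B.v i)} := by
  rcases m with _ | c
  · rw [v_zero hB, map_natCast, map_natCast, sub_self]
    exact zero_mem _
  · refine mem_Ic_of_dvd (c := c) hB _ ?_
    have h1 : map (ps c R) (C (B.v (c + 1)) : MvPolynomial ℕ (MvPolynomial ℕ R)) =
        C (B.v (c + 1)) := by
      rw [map_C, v_succ hB, ps_X_ge c R (by omega)]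
    rw [map_sub, h1]
    exact ps_eta_top hB hp0

end

section

variable {p : ℕ} [hp : Fact p.Prime] {R : Type} [CommRing R] {B : BPBP p (MvPolynomial ℕ R)}
  {M : ModuleCat.{0} (MvPolynomial ℕ R)} {D : Comod B M} {x : M}

theorem psi_v_self (hB : B.v = gen (p : R)) (hp0 : ∀ x : R, (p : R) * x = 0 → x = 0) {m : ℕ}
    {k : ℤ} (hx : IsCyclic D m k x) : D.ψ (B.v m • x) = 1 ⊗ₜ (B.v m • x) := by
  rw [D.smul, hx.2.1]
  have h1 := eta_v_self hB hp0 m
  have h2 : ∀ b ∈ Ideal.span {b : MvPolynomial ℕ (MvPolynomial ℕ R) | ∃ i < m, b = C (B.v i)},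
      b • ((1 : MvPolynomial ℕ (MvPolynomial ℕ R)) ⊗ₜ[MvPolynomial ℕ R] x) = 0 := by
    intro b hb
    induction hb using Submodule.span_induction with
    | mem b hb =>
      obtain ⟨i, hi, rfl⟩ := hb
      rw [smul_tmul', smul_eq_mul, mul_one, ← mul_one (C (B.v i)), ← smul_eq_C_mul, smul_tmul,
        (hx.2.2.2 (B.v i)).2 (Ideal.subset_span ⟨i, hi, rfl⟩), tmul_zero]
    | zero => rw [zero_smul]
    | add b b' _ _ hb hb' => rw [add_smul, hb, hb', add_zero]
    | smul r b _ hb => rw [smul_assoc, hb, smul_zero]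
  have h3 := h2 _ h1
  have h4 : B.η (B.v m) = (B.η (B.v m) - C (B.v m)) + C (B.v m) := by ring
  rw [h4, add_smul, h3, zero_add, smul_tmul', smul_eq_mul, mul_one, ← mul_one (C (B.v m)),
    ← smul_eq_C_mul, smul_tmul]

end

end Vale.Agent.P257.V
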