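import Vale.Agent.P257.V.Tri
import Vale.Agent.P257.Q.Facts

set_option linter.all false

/-! Products on towers of iterated cofibres. -/

namespace Vale.Agent.P257.V

open CategoryTheory Category Limits Pretriangulated MonoidalCategory Finset Vale.Agent.P257.S
  Vale.Agent.P257.Q

universe v' u

variable {p : ℕ} {A : Type} [CommRing A] {B : BPBP p A}
  {T : Type u} [Category.{v'} T] [HasZeroObject T] [Preadditive T] [HasShift T ℤ]
  [∀ n : ℤ, (shiftFunctor T n).Additive] [Pretriangulated T] [MonoidalCategory T]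
  {h : T ⥤ ModuleCat.{0} A} {C : ∀ X, Comod B (h.obj X)}
  {κ : ∀ X Y, h.obj X →ₗ[A] h.obj Y →ₗ[A] h.obj (X ⊗ Y)} {g : h.obj (𝟙_ T)}
  {a : ℕ → ℤ} {v : ℕ → A}

theorem map_comp_apply {X Y Z : T} (f : X ⟶ Y) (f' : Y ⟶ Z) (x : h.obj X) :
    (h.map (f ≫ f')).hom x = (h.map f').hom ((h.map f).hom x) := by
  rw [h.map_comp]; rfl

theorem Tow.prod (hκ : IsProduct h C κ g)
    (hX : ∀ W : T, ∃ _ : (tensorRight W).CommShift ℤ, (tensorRight W).IsTriangulated)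
    (hgen : ∀ n : ℤ, ∃ x, IsCyclic (C ((𝟙_ T)⟦n⟧)) 0 n x)
    {n : ℕ} {W : T} {ηW : 𝟙_ T ⟶ W} (hW : Tow a v h (𝟙_ T) n W ηW) {m : ℕ} {U : T}
    {η : 𝟙_ T ⟶ U} (hU : Tow a v h (𝟙_ T) m U η)
    (hz : ∀ j < m, ∀ A ⊆ range j, ∀ D ⊆ range n, (A ≠ ∅ ∨ D ≠ ∅) →
      HZ (𝟙_ T) W (a j + cd a A + cd a D))
    (hur : ∀ j < m, ∀ f : (𝟙_ T)⟦a j⟧ ⟶ W, (∀ x, (h.map f).hom x = 0) → f = 0)
    (hv : ∀ j < m, ∀ y : h.obj W, v j • y = 0) :
    ∃ μ : U ⊗ W ⟶ W, (λ_ W).inv ≫ (η ▷ W) ≫ μ = 𝟙 W := by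
  induction hU with
  | zero => exact ⟨(λ_ W).hom, by simp⟩
  | @succ m U U' η f i k hU hf hT ih =>
    obtain ⟨μ, hμ⟩ := ih (fun j hj => hz j (by omega)) (fun j hj => hur j (by omega))
      (fun j hj => hv j (by omega))
    obtain ⟨cs, ht⟩ := hX W
    let Φ : T ⥤ T := tensorRight W
    have nat : (Φ.map η)⟦a m⟧' ≫ (Φ.commShiftIso (a m)).inv.app U =
        (Φ.commShiftIso (a m)).inv.app (𝟙_ T) ≫ Φ.map (η⟦a m⟧') :=
      ((Φ.commShiftIso (a m)).inv.naturality η)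
    have key : ∀ z, (h.map ((Φ.map η)⟦a m⟧' ≫ (Φ.commShiftIso (a m)).inv.app U ≫ (f ▷ W) ≫ μ)).hom
        z = 0 := by
      intro z
      rw [← assoc, nat, assoc, map_comp_apply]
      set z' := (h.map ((Φ.commShiftIso (a m)).inv.app (𝟙_ T))).hom z with hz'
      clear_value z'
      obtain ⟨x, hx⟩ := hgen (a m)
      obtain ⟨y, rfl⟩ := ((hκ.sphere (a m) W).2 x hx).2 z'
      have h1 : Φ.map (η⟦a m⟧') ≫ (f ▷ W) ≫ μ = ((η⟦a m⟧' ≫ f) ⊗ₘ 𝟙 W) ≫ μ := by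
        change (η⟦a m⟧' ▷ W) ≫ (f ▷ W) ≫ μ = _
        rw [tensorHom_id, comp_whiskerRight, assoc]
      rw [h1, map_comp_apply]
      erw [hκ.nat]
      rw [map_comp_apply]
      obtain ⟨y', hy'⟩ := hf ((h.map (η⟦a m⟧')).hom x)
      rw [hy', map_smul, LinearMap.smul_apply, map_smul]
      exact hv m (Nat.lt_succ_self m) _
    have h2 : (Φ.commShiftIso (a m)).inv.app U ≫ (f ▷ W) ≫ μ = 0 := by
      refine hU.hz' Φ (a m) ?_ _ ?_
      · intro A hA hA'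
        refine HZ.of_iso (λ_ W).symm (hW.hz (𝟭 T) _ fun D hD => ?_)
        exact hz m (Nat.lt_succ_self m) A hA D hD (Or.inl hA')
      · have h3 : (λ_ W).inv⟦a m⟧' ≫ (Φ.map η)⟦a m⟧' ≫ (Φ.commShiftIso (a m)).inv.app U ≫
            (f ▷ W) ≫ μ = 0 := by
          refine hW.hz' (𝟭 T) (a m) ?_ _ ?_
          · intro D hD hD'
            have := hz m (Nat.lt_succ_self m) ∅ (empty_subset _) D hD (Or.inr hD')
            rwa [show cd a ∅ = 0 from Finset.sum_empty, add_zero] at this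
          · refine hur m (Nat.lt_succ_self m) _ fun x => ?_
            rw [map_comp_apply, map_comp_apply]
            exact key _
        rw [← cancel_epi ((λ_ W).inv⟦a m⟧'), comp_zero]
        exact h3
    have h4 : (f ▷ W) ≫ μ = 0 := by
      rw [← cancel_epi ((Φ.commShiftIso (a m)).inv.app U), h2, comp_zero]
    obtain ⟨μ', hμ'⟩ := Triangle.yoneda_exact₂ _ (Φ.map_distinguished _ hT) μ h4
    change U' ⊗ W ⟶ W at μ'
    refine ⟨μ', ?_⟩
    have h5 : (i ▷ W) ≫ μ' = μ := hμ'.symm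
    rw [comp_whiskerRight, assoc, h5, hμ]

end Vale.Agent.P257.V
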