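import Vale.Agent.P257.Q.Facts

/-! The facts on `Ext(BP_*, BP_*/I_m)`, `m ≤ 4`, used for the existence of `V(1), V(2), V(3)` and
of their left-unital products. -/

namespace Vale.Agent.P257.V

open Finset Vale.Agent.P257.S Vale.Agent.P257.Q

/-- `|v_i| / q`. -/
def bq (p i : ℕ) : ℕ := ∑ a ∈ range i, p ^ a

/-- Vanishing of the obstructions. -/
structure VFacts (p : ℕ) {A : Type} [CommRing A] (B : BPBP p A) : Prop where
  /-- `v_m` is a permanent cycle of `V(m-1)` -/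
  perm : ∀ (m : ℕ), 1 ≤ m → m ≤ 3 → ∀ (M : ModuleCat.{0} A) (D : Comod B M) (x : M),
    IsCyclic D m 0 x → (∀ s t z, IsCobdry D s t z → IsCocycle D s t z) →
    ∀ k : ℕ, 1 ≤ k → VanL D (k * (2 * (p - 1)) + 1) (qd p (bq p m + k))
  /-- the product of `V(m-1)` -/
  prod : ∀ (m : ℕ), 1 ≤ m → m ≤ 4 → ∀ (M : ModuleCat.{0} A) (D : Comod B M) (x : M),
    IsCyclic D m 0 x → (∀ s t z, IsCobdry D s t z → IsCocycle D s t z) → ∀ j < m, ∀ A' ⊆ range j, ∀ B' ⊆ range m, ∀ k : ℕ, 1 ≤ k →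
      VanL D (k * (2 * (p - 1)) - (A'.card + B'.card))
        (qd p (bq p j + ∑ i ∈ A', bq p i + ∑ i ∈ B', bq p i + k))

end Vale.Agent.P257.V
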