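import Vale.Agent.P257.V.Top
import Vale.Agent.P257.V.Spec

set_option linter.all false

/-! Existence of `V(1), V(2), V(3)` with left-unital products: the induction. -/

namespace Vale.Agent.P257.V

open CategoryTheory Category Limits Pretriangulated MonoidalCategory Finset MvPolynomial
  TensorProduct Vale.Agent.P257.S Vale.Agent.P257.Q Vale.Agent.P257.K

universe v' u

variable {p : ℕ} [hp : Fact p.Prime] {R : Type} [CommRing R] {B : S.BPBP p (MvPolynomial ℕ R)}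
  {T : Type u} [Category.{v'} T] [HasZeroObject T] [Preadditive T]
  [HasShift T ℤ] [∀ n : ℤ, (shiftFunctor T n).Additive] [Pretriangulated T] [IsTriangulated T]
  [HasCountableCoproducts T] [MonoidalCategory T]
  {h : T ⥤ ModuleCat.{0} (MvPolynomial ℕ R)} [h.IsHomological]
  [PreservesColimitsOfShape (Discrete ℕ) h] {C : ∀ X, Comod B (h.obj X)}
  {κ : ∀ X Y, h.obj X →ₗ[MvPolynomial ℕ R] h.obj Y →ₗ[MvPolynomial ℕ R] h.obj (X ⊗ Y)}
  {g : h.obj (𝟙_ T)}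

theorem vdeg_eq (p i : ℕ) (hp : 1 ≤ p) : vdeg p i = qd p (bq p i) := by
  rw [vdeg, qd, bq]
  have h2 : ((∑ a ∈ range i, p ^ a : ℕ) : ℤ) * ((p : ℤ) - 1) = (p : ℤ) ^ i - 1 := by
    push_cast
    exact geom_sum_mul (p : ℤ) i
  rw [← h2]
  push_cast [Nat.cast_sub hp]
  ring

theorem cd_eq (hp : 1 ≤ p) (A : Finset ℕ) :
    cd (vdeg p) A = qd p (∑ i ∈ A, bq p i) + A.card := by
  rw [cd, Finset.sum_add_distrib, Finset.sum_const, nsmul_one, qd]
  congr 1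
  push_cast
  rw [Finset.mul_sum]
  refine Finset.sum_congr rfl fun i _ => ?_
  rw [vdeg_eq p i hp, qd]
  push_cast
  ring

theorem qd_add (p N M : ℕ) : qd p (N + M) = qd p N + qd p M := by
  rw [qd, qd, qd]; push_cast; ring

/-- The product of one stage. -/
theorem exists_mul (hp11 : 11 ≤ p) (hR : S.IsZp p R) (hB : B.v = gen (p : R))
    (hh : IsBPHomology (𝟙_ T) h C) (hκ : IsProduct h C κ g)
    (hX : ∀ W : T, ∃ _ : (tensorRight W).CommShift ℤ, (tensorRight W).IsTriangulated)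
    (hV : VFacts p B) (hdd : ∀ X s t z, IsCobdry (C X) s t z → IsCocycle (C X) s t z)
    (hsp : ∀ (m : ℕ) (W : T) (x : h.obj W) (s : ℕ) (t : ℤ), IsCyclic (C W) m 0 x →
      ¬ ((2 * (p - 1) : ℕ) : ℤ) ∣ t → VanL (C W) s t)
    (hur : ∀ (m : ℕ) (W : T) (x : h.obj W) (t : ℤ), IsFin p W → IsCyclic (C W) m 0 x →
      (∀ s : ℕ, 1 ≤ s → VanL (C W) s (t + s)) → ∀ f : (𝟙_ T)⟦t⟧ ⟶ W,
      (∀ y, (h.map f).hom y = 0) → f = 0)
    (hz : ∀ (m : ℕ) (W : T) (x : h.obj W) (t : ℤ), IsFin p W → IsCyclic (C W) m 0 x →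
      (∀ s : ℕ, 1 ≤ s → VanL (C W) s (t + s)) → ¬ ((2 * (p - 1) : ℕ) : ℤ) ∣ t →
      ∀ f : (𝟙_ T)⟦t⟧ ⟶ W, f = 0)
    {m : ℕ} (hm : 1 ≤ m) (hm4 : m ≤ 4) {U : T} {η : 𝟙_ T ⟶ U}
    (hU : Tow (vdeg p) B.v h (𝟙_ T) m U η) (hF : IsFin p U)
    (hx : IsCyclic (C U) m 0 ((h.map η).hom g)) :
    ∃ μ : U ⊗ U ⟶ U, (λ_ U).inv ≫ (η ▷ U) ≫ μ = 𝟙 U := by
  have hp1 : 1 ≤ p := by omega
  -- the vanishing of `Ext`
  have key : ∀ j < m, ∀ A ⊆ range j, ∀ D ⊆ range m, ∀ s : ℕ, 1 ≤ s →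
      VanL (C U) s (vdeg p j + cd (vdeg p) A + cd (vdeg p) D + s) := by
    intro j hj A hA D hD s hs
    have e1 : vdeg p j + cd (vdeg p) A + cd (vdeg p) D + s =
        qd p (bq p j + ∑ i ∈ A, bq p i + ∑ i ∈ D, bq p i) + ((A.card + D.card + s : ℕ) : ℤ) := by
      rw [cd_eq hp1, cd_eq hp1, vdeg_eq p j hp1, qd_add, qd_add]
      push_cast
      ring
    rw [e1]
    by_cases hd : 2 * (p - 1) ∣ A.card + D.card + s
    · obtain ⟨k, hk⟩ := hd
      have hk1 : 1 ≤ k := by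
        rcases Nat.eq_zero_or_pos k with rfl | h1
        · omega
        · exact h1
      have h1 := hV.prod m hm hm4 _ (C U) _ hx (hdd U) j hj A hA D hD k hk1
      have e2 : k * (2 * (p - 1)) - (A.card + D.card) = s := by
        rw [mul_comm k, ← hk]; omega
      rw [e2, qd_add] at h1
      have e3 : qd p k = ((A.card + D.card + s : ℕ) : ℤ) := by
        rw [hk, qd]; push_cast; ring
      rwa [e3] at h1
    · refine hsp m U _ s _ hx fun h1 => hd ?_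
      rw [qd, dvd_add_right (dvd_mul_right _ _)] at h1
      exact_mod_cast h1
  refine Tow.prod hκ hX (exists_gen_shift hR hB hh) hU hU ?_ ?_ ?_
  · intro j hj A hA D hD hAD f
    refine hz m U _ _ hF hx (fun s hs => key j hj A hA D hD s hs) ?_ f
    intro h1
    have e1 : vdeg p j + cd (vdeg p) A + cd (vdeg p) D =
        qd p (bq p j + ∑ i ∈ A, bq p i + ∑ i ∈ D, bq p i) + ((A.card + D.card : ℕ) : ℤ) := by
      rw [cd_eq hp1, cd_eq hp1, vdeg_eq p j hp1, qd_add, qd_add]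
      push_cast
      ring
    rw [e1, qd, dvd_add_right (dvd_mul_right _ _)] at h1
    have h2 : 2 * (p - 1) ∣ A.card + D.card := by exact_mod_cast h1
    have h3 : A.card ≤ j := by simpa using card_le_card hA
    have h4 : D.card ≤ m := by simpa using card_le_card hD
    have h5 : 0 < A.card + D.card := by
      rcases hAD with h | h
      · have := card_pos.2 (nonempty_iff_ne_empty.2 h); omega
      · have := card_pos.2 (nonempty_iff_ne_empty.2 h); omega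
    have h6 := Nat.le_of_dvd h5 h2
    omega
  · intro j hj f hf
    refine hur m U _ _ hF hx (fun s hs => ?_) f hf
    have := key j hj ∅ (empty_subset _) ∅ (empty_subset _) s hs
    simpa [cd] using this
  · intro j hj y
    obtain ⟨a, rfl⟩ := hx.2.2.1 y
    rw [smul_comm, (hx.2.2.2 (B.v j)).2 (Ideal.subset_span ⟨j, hj, rfl⟩), smul_zero]

/-- `V(3)` and its product. -/
theorem exists_V3 (hp11 : 11 ≤ p) (hR : S.IsZp p R) (hB : B.v = gen (p : R))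
    (hh : IsBPHomology (𝟙_ T) h C) (hκ : IsProduct h C κ g)
    (hX : ∀ W : T, ∃ _ : (tensorRight W).CommShift ℤ, (tensorRight W).IsTriangulated)
    (hV : VFacts p B) (hdd : ∀ X s t z, IsCobdry (C X) s t z → IsCocycle (C X) s t z)
    (zero : ∃ (U : T) (f : (𝟙_ T)⟦vdeg p 0⟧ ⟶ 𝟙_ T) (i : 𝟙_ T ⟶ U)
      (k : U ⟶ (𝟙_ T)⟦vdeg p 0⟧⟦(1 : ℤ)⟧), Triangle.mk f i k ∈ distTriang T ∧
      (∀ z, ∃ y, (h.map f).hom z = B.v 0 • y) ∧ IsFin p U ∧
      IsCyclic (C U) 1 0 ((h.map i).hom g))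
    (hsp : ∀ (m : ℕ) (W : T) (x : h.obj W) (s : ℕ) (t : ℤ), IsCyclic (C W) m 0 x →
      ¬ ((2 * (p - 1) : ℕ) : ℤ) ∣ t → VanL (C W) s t)
    (hur : ∀ (m : ℕ) (W : T) (x : h.obj W) (t : ℤ), IsFin p W → IsCyclic (C W) m 0 x →
      (∀ s : ℕ, 1 ≤ s → VanL (C W) s (t + s)) → ∀ f : (𝟙_ T)⟦t⟧ ⟶ W,
      (∀ y, (h.map f).hom y = 0) → f = 0)
    (hz : ∀ (m : ℕ) (W : T) (x : h.obj W) (t : ℤ), IsFin p W → IsCyclic (C W) m 0 x →
      (∀ s : ℕ, 1 ≤ s → VanL (C W) s (t + s)) → ¬ ((2 * (p - 1) : ℕ) : ℤ) ∣ t →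
      ∀ f : (𝟙_ T)⟦t⟧ ⟶ W, f = 0)
    (hex : ∀ (m : ℕ) (U : T) (x : h.obj U), IsFin p U → IsCyclic (C U) m 0 x →
      (∀ r : ℕ, 2 ≤ r → VanL (C U) r (vdeg p m + r - 1)) →
      ∃ (f : (𝟙_ T)⟦vdeg p m⟧ ⟶ U) (y : h.obj ((𝟙_ T)⟦vdeg p m⟧)),
        IsCyclic (C ((𝟙_ T)⟦vdeg p m⟧)) 0 (vdeg p m) y ∧ (h.map f).hom y = B.v m • x) :
    ∀ m : ℕ, 1 ≤ m → m ≤ 4 → ∃ (U : T) (η : 𝟙_ T ⟶ U) (μ : U ⊗ U ⟶ U),
      Tow (vdeg p) B.v h (𝟙_ T) m U η ∧ IsFin p U ∧ IsCyclic (C U) m 0 ((h.map η).hom g) ∧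
      (λ_ U).inv ≫ (η ▷ U) ≫ μ = 𝟙 U := by
  have hp1 : 1 ≤ p := by omega
  intro m hm
  induction m, hm using Nat.le_induction with
  | base =>
    intro _
    obtain ⟨U, f, i, k, hT, hf, hF, hx⟩ := zero
    have hU : Tow (vdeg p) B.v h (𝟙_ T) 1 U (𝟙 _ ≫ i) := Tow.zero.succ f i k hf hT
    rw [id_comp] at hU
    obtain ⟨μ, hμ⟩ := exists_mul hp11 hR hB hh hκ hX hV hdd hsp hur hz le_rfl (by norm_num) hU hF hx
    exact ⟨U, i, μ, hU, hF, hx, hμ⟩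
  | succ m hm ih =>
    intro hm4
    obtain ⟨U, η, μ, hU, hF, hx, hμ⟩ := ih (by omega)
    obtain ⟨f, y, hy, hfy⟩ := hex m U _ hF hx (by
      intro r hr
      have e1 : vdeg p m + r - 1 = qd p (bq p m) + ((r - 1 : ℕ) : ℤ) := by
        rw [vdeg_eq p m hp1]
        push_cast [Nat.cast_sub (show 1 ≤ r by omega)]
        ring
      rw [e1]
      by_cases hd : 2 * (p - 1) ∣ r - 1
      · obtain ⟨k, hk⟩ := hd
        have hk1 : 1 ≤ k := by
          rcases Nat.eq_zero_or_pos k with rfl | h1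
          · omega
          · exact h1
        have h1 := hV.perm m hm (by omega) _ (C U) _ hx (hdd U) k hk1
        have e2 : k * (2 * (p - 1)) + 1 = r := by
          rw [mul_comm k, ← hk]; omega
        have e3 : qd p k = ((r - 1 : ℕ) : ℤ) := by
          rw [hk, qd]; push_cast; ring
        rwa [e2, qd_add, e3] at h1
      · refine hsp m U _ r _ hx fun h1 => hd ?_
        rw [qd, dvd_add_right (dvd_mul_right _ _)] at h1
        exact_mod_cast h1)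
    obtain ⟨U', η', hU', hF', hx'⟩ := step hR hB hh hκ hU hF hx hμ f y hy hfy
    obtain ⟨μ', hμ'⟩ := exists_mul hp11 hR hB hh hκ hX hV hdd hsp hur hz (by omega) hm4 hU' hF' hx'
    exact ⟨U', η', μ', hU', hF', hx', hμ'⟩

end Vale.Agent.P257.V
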