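import Vale.Agent.P257.V.Prod
import Vale.Agent.P257.V.Inv
import Vale.Agent.P257.Q.Main

set_option linter.all false

/-! Existence of `V(1), V(2), V(3)` with left-unital products. -/

namespace Vale.Agent.P257.V

open CategoryTheory Category Limits Pretriangulated MonoidalCategory Finset MvPolynomial
  TensorProduct Vale.Agent.P257.S Vale.Agent.P257.Q Vale.Agent.P257.K

universe v' u

section Cocycle

variable {p : ℕ} [hp : Fact p.Prime] {R : Type} [CommRing R] {B : S.BPBP p (MvPolynomial ℕ R)}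
  {M : ModuleCat.{0} (MvPolynomial ℕ R)} {D : Comod B M} {x : M}

theorem cocycle_v_self (hB : B.v = gen (p : R)) (hp0 : ∀ x : R, (p : R) * x = 0 → x = 0) {m : ℕ}
    (hx : S.IsCyclic D m 0 x) : IsCocycle D 0 (vdeg p m)
      ((1 : W (MvPolynomial ℕ R)) ⊗ₜ[MvPolynomial ℕ R] (B.v m • x)) := by
  have h1 := psi_v_self hB hp0 hx
  refine ⟨AddSubgroup.subset_closure ⟨0, 0 + vdeg p m, B.v m • x, by simp, D.smul_mem m 0 x hx.1,
    by simp, rfl⟩, ?_⟩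
  rw [cobar, shiftM_gen h1, map_one, Finset.range_zero, Finset.sum_empty]
  simp

end Cocycle

section Cone

variable {R A : Type} [CommRing R] [CommRing A] [Algebra R A] {𝒜 : ℤ → Submodule R A}
  [GradedAlgebra 𝒜] {T : Type u} [Category.{v'} T] [HasZeroObject T] [Preadditive T]
  [HasShift T ℤ] [∀ n : ℤ, (shiftFunctor T n).Additive] [Pretriangulated T]

theorem cyc_cone {E : GHom 𝒜 T} {w : ℕ → A} {m : ℕ} (hreg : ∀ a, a * w m ∈ Jw w m → a ∈ Jw w m)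
    {d₀ d₁ : ℤ} {Y W X : T} {y : E.H Y} {u : E.H W} (hy : E.Cyc Y d₀ y (Jw w m))
    (hu : E.Cyc W d₁ u (Jw w m)) {f : W ⟶ Y} {g : Y ⟶ X} {h : X ⟶ W⟦(1 : ℤ)⟧}
    (hf : E.mapH f u = w m • y) (hT : Triangle.mk f g h ∈ distTriang T) :
    E.Cyc X d₀ (E.mapH g y) (Jw w (m + 1)) := by
  have hrot' : Triangle.mk g h (-f⟦(1 : ℤ)⟧') ∈ distTriang T := rot_of_distTriang _ hT
  refine GHom.cyc_of_triangle hrot' hreg hy hu.tau.neg ?_
  rw [map_neg, E.del_apply, E.mapH_neg, map_neg, neg_neg, ← E.tau_nat, E.sig_tau, hf]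

end Cone

section Setting

variable {p : ℕ} [hp : Fact p.Prime] {R : Type} [CommRing R] {B : S.BPBP p (MvPolynomial ℕ R)}
  {T : Type u} [Category.{v'} T] [HasZeroObject T] [Preadditive T]
  [HasShift T ℤ] [∀ n : ℤ, (shiftFunctor T n).Additive] [Pretriangulated T] [IsTriangulated T]
  [HasCountableCoproducts T] [MonoidalCategory T]
  {h : T ⥤ ModuleCat.{0} (MvPolynomial ℕ R)} [h.IsHomological]
  [PreservesColimitsOfShape (Discrete ℕ) h] {C : ∀ X, Comod B (h.obj X)}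
  {κ : ∀ X Y, h.obj X →ₗ[MvPolynomial ℕ R] h.obj Y →ₗ[MvPolynomial ℕ R] h.obj (X ⊗ Y)}
  {g : h.obj (𝟙_ T)}

omit [MonoidalCategory T] in
/-- The cofibre of a map of degree `v_m`, with its generator. -/
theorem cyclic_cone (hR : S.IsZp p R) (hB : B.v = gen (p : R)) {S : T}
    (hh : IsBPHomology S h C) {m : ℕ} {Y W X : T} {k l : ℤ} {f : W ⟶ Y} {i : Y ⟶ X}
    {q : X ⟶ W⟦(1 : ℤ)⟧} {y : h.obj Y} {u : h.obj W} (hT : Triangle.mk f i q ∈ distTriang T)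
    (hy : IsCyclic (C Y) m k y) (hu : IsCyclic (C W) m l u)
    (hf : (h.map f).hom u = B.v m • y) : IsCyclic (C X) (m + 1) k ((h.map i).hom y) := by
  obtain ⟨L⟩ := exists_LocalSphere hR hh
  rw [← cyc_iff hR hB hh L] at hy hu ⊢
  exact cyc_cone (E := mkGHom hR hB hh L)
    ((good hR hB hh (m + 1)).reg m (Nat.lt_succ_self m)) hy hu hf hT

theorem exists_gen_shift (hR : S.IsZp p R) (hB : B.v = gen (p : R))
    (hh : IsBPHomology (𝟙_ T) h C) (n : ℤ) : ∃ x, IsCyclic (C ((𝟙_ T)⟦n⟧)) 0 n x := by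
  obtain ⟨L⟩ := exists_LocalSphere hR hh
  obtain ⟨g, hg⟩ := hh.sphere
  rw [← cyc_iff hR hB hh L] at hg
  obtain ⟨x, hx⟩ := hg.exists_shift n
  rw [zero_add] at hx
  exact ⟨x, (cyc_iff hR hB hh L).1 hx⟩

/-- The next stage of the tower. -/
theorem step (hR : S.IsZp p R) (hB : B.v = gen (p : R))
    (hh : IsBPHomology (𝟙_ T) h C) (hκ : IsProduct h C κ g) {m : ℕ} {U : T} {η : 𝟙_ T ⟶ U}
    {μ : U ⊗ U ⟶ U} (hU : Tow (vdeg p) B.v h (𝟙_ T) m U η) (hF : IsFin p U)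
    (hx : IsCyclic (C U) m 0 ((h.map η).hom g)) (hμ : (λ_ U).inv ≫ (η ▷ U) ≫ μ = 𝟙 U)
    (f0 : (𝟙_ T)⟦vdeg p m⟧ ⟶ U) (g' : h.obj ((𝟙_ T)⟦vdeg p m⟧))
    (hg' : IsCyclic (C ((𝟙_ T)⟦vdeg p m⟧)) 0 (vdeg p m) g')
    (hf0 : (h.map f0).hom g' = B.v m • (h.map η).hom g) :
    ∃ (U' : T) (η' : 𝟙_ T ⟶ U'), Tow (vdeg p) B.v h (𝟙_ T) (m + 1) U' η' ∧ IsFin p U' ∧
      IsCyclic (C U') (m + 1) 0 ((h.map η').hom g) := by
  set x := (h.map η).hom g with hxdef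
  obtain ⟨⟨e⟩, -⟩ := hκ.sphere (vdeg p m) U
  have hbij := (hκ.sphere (vdeg p m) U).2 g' hg'
  have hμ' : (λ_ U).inv ≫ (η ⊗ₘ 𝟙 U) ≫ μ = 𝟙 U := by rwa [tensorHom_id]
  -- the object `S[t] ⊗ U`
  have hW : IsCyclic (C ((𝟙_ T)⟦vdeg p m⟧ ⊗ U)) m (vdeg p m) (κ _ U g' x) := by
    refine ⟨?_, ?_, ?_, ?_⟩
    · have := hκ.deg _ U _ _ g' hg'.1 x hx.1
      rwa [add_zero] at this
    · rw [hκ.coaction, hg'.2.1, hx.2.1, map₂_apply_tmul, TensorProduct.map_tmul,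
        LinearMap.mul_apply', one_mul]
    · intro z
      obtain ⟨y, rfl⟩ := hbij.2 z
      obtain ⟨a, rfl⟩ := hx.2.2.1 y
      exact ⟨a, by rw [map_smul]⟩
    · intro a
      rw [← map_smul, ← map_zero (κ _ U g'), hbij.1.eq_iff]
      exact hx.2.2.2 a
  have hW' : IsCyclic (C (U⟦vdeg p m⟧)) m (vdeg p m) ((h.map e.hom).hom (κ _ U g' x)) := by
    obtain ⟨L⟩ := exists_LocalSphere hR hh
    rw [← cyc_iff hR hB hh L] at hW ⊢
    exact hW.iso e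
  let φ : U⟦vdeg p m⟧ ⟶ U := e.inv ≫ (f0 ⊗ₘ 𝟙 U) ≫ μ
  have hφ : ∀ y, (h.map φ).hom ((h.map e.hom).hom (κ _ U g' y)) = B.v m • y := by
    intro y
    have h1 := hκ.nat _ _ _ _ f0 (𝟙 U) g' y
    rw [CategoryTheory.Functor.map_id] at h1
    change (h.map (e.inv ≫ (f0 ⊗ₘ 𝟙 U) ≫ μ)).hom _ = _
    rw [← map_comp_apply, ← assoc, e.hom_inv_id, id_comp, map_comp_apply, h1, hf0]
    have h2 := pairing_unit hκ hxdef.symm hμ' y
    have h3 : (h.map μ).hom (κ U U (B.v m • x) y) = B.v m • pairing κ μ x y := by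
      rw [map_smul, LinearMap.smul_apply, map_smul]
      rfl
    rw [h2] at h3
    exact h3
  have hφ' : ∀ z, ∃ y, (h.map φ).hom z = B.v m • y := by
    intro z
    obtain ⟨y, hy⟩ := hbij.2 ((h.map e.inv).hom z)
    refine ⟨y, ?_⟩
    rw [← hφ y]
    congr 1
    have : κ ((𝟙_ T)⟦vdeg p m⟧) U g' y = (h.map e.inv).hom z := hy
    rw [this, ← map_comp_apply, e.inv_hom_id, CategoryTheory.Functor.map_id]
    rfl
  obtain ⟨U', i, k, hT⟩ := Pretriangulated.distinguished_cocone_triangle φ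
  refine ⟨U', η ≫ i, hU.succ φ i k hφ' hT, ?_, ?_⟩
  · obtain ⟨h7, -⟩ := of_cofibre hR hB hh hT hF
      ((isFinitePLocal_iff' p (𝟙_ T) (U⟦vdeg p m⟧)).2
        (((isFinitePLocal_iff' p (𝟙_ T) U).1 hF).shift (vdeg p m))) hx hW' (hφ x)
    exact h7
  · rw [map_comp_apply]
    exact cyclic_cone hR hB hh hT hx hW' (hφ x)

end Setting

end Vale.Agent.P257.V
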