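import Mathlib

set_option linter.all false

/-! Towers of iterated cofibres and obstruction theory in a triangulated category. -/

namespace Vale.Agent.P257.V

open CategoryTheory Category Limits Pretriangulated MonoidalCategory Finset

universe v' u

section Tri

variable {T : Type u} [Category.{v'} T] [HasZeroObject T] [Preadditive T] [HasShift T ℤ]
  [∀ n : ℤ, (shiftFunctor T n).Additive] [Pretriangulated T]

/-- Every map `Z⟦d⟧ ⟶ Y` is zero. -/
def HZ (Z Y : T) (d : ℤ) : Prop := ∀ g : Z⟦d⟧ ⟶ Y, g = 0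

omit [HasZeroObject T] [∀ n : ℤ, (shiftFunctor T n).Additive] [Pretriangulated T] in
theorem HZ.of_iso {Z Z' Y : T} {d : ℤ} (e : Z ≅ Z') (h : HZ Z Y d) : HZ Z' Y d := fun g => by
  rw [← cancel_epi (e.hom⟦d⟧'), h (e.hom⟦d⟧' ≫ g), comp_zero]

omit [HasZeroObject T] [∀ n : ℤ, (shiftFunctor T n).Additive] [Pretriangulated T] in
theorem HZ.shift {Z Y : T} {a d : ℤ} (h : HZ Z Y (a + d)) : HZ (Z⟦a⟧) Y d := fun g => by
  rw [← cancel_epi ((shiftFunctorAdd T a d).hom.app Z), h ((shiftFunctorAdd T a d).hom.app Z ≫ g),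
    comp_zero]

theorem factor {Z1 Z2 Z3 : T} {f : Z1 ⟶ Z2} {i : Z2 ⟶ Z3} {k : Z3 ⟶ Z1⟦(1 : ℤ)⟧}
    (hT : Triangle.mk f i k ∈ distTriang T) {Y : T} {d : ℤ} (g : Z3⟦d⟧ ⟶ Y)
    (hg : i⟦d⟧' ≫ g = 0) (h1 : HZ Z1 Y (d + 1)) : g = 0 := by
  obtain ⟨u, hu⟩ := Triangle.yoneda_exact₃ _ (Triangle.shift_distinguished _ hT d) g (by
    change (d.negOnePow • i⟦d⟧') ≫ g = 0
    rw [Linear.units_smul_comp, hg, smul_zero])
  change Z1⟦d⟧⟦(1 : ℤ)⟧ ⟶ Y at u
  have h2 : u = 0 := by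
    have h3 := h1 ((shiftFunctorAdd T d 1).hom.app Z1 ≫ u)
    rw [← cancel_epi ((shiftFunctorAdd T d 1).hom.app Z1), h3, comp_zero]
  rw [hu, h2]
  exact comp_zero

theorem factor_map {Z1 Z2 Z3 : T} {f : Z1 ⟶ Z2} {i : Z2 ⟶ Z3} {k : Z3 ⟶ Z1⟦(1 : ℤ)⟧}
    (hT : Triangle.mk f i k ∈ distTriang T) (Φ : T ⥤ T) [Φ.CommShift ℤ]
    [Φ.IsTriangulated] {Y : T} {d : ℤ} (g : (Φ.obj Z3)⟦d⟧ ⟶ Y)
    (hg : (Φ.map i)⟦d⟧' ≫ g = 0) (h1 : HZ (Φ.obj Z1) Y (d + 1)) : g = 0 :=
  factor (Φ.map_distinguished _ hT) g hg h1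

/-- `U` is obtained from `S` by attaching `m` times the suspension of the previous stage,
along maps which in homology are divisible by `v`. -/
inductive Tow {A : Type} [CommRing A] (a : ℕ → ℤ) (v : ℕ → A) (h : T ⥤ ModuleCat.{0} A) (S : T) :
    ℕ → (U : T) → (S ⟶ U) → Prop
  | zero : Tow a v h S 0 S (𝟙 S)
  | succ {m : ℕ} {U U' : T} {η : S ⟶ U} (f : U⟦a m⟧ ⟶ U) (i : U ⟶ U')
      (k : U' ⟶ U⟦a m⟧⟦(1 : ℤ)⟧) (hU : Tow a v h S m U η)
      (hf : ∀ z, ∃ y, (h.map f).hom z = v m • y) (hT : Triangle.mk f i k ∈ distTriang T) :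
      Tow a v h S (m + 1) U' (η ≫ i)

variable {A : Type} [CommRing A] {a : ℕ → ℤ} {v : ℕ → A} {h : T ⥤ ModuleCat.{0} A} {S : T}

/-- The dimensions of the cells. -/
def cd (a : ℕ → ℤ) (A : Finset ℕ) : ℤ := ∑ i ∈ A, (a i + 1)

theorem cd_insert (a : ℕ → ℤ) {A : Finset ℕ} {m : ℕ} (hA : A ⊆ range m) :
    cd a (insert m A) = a m + 1 + cd a A :=
  Finset.sum_insert fun h => by have := mem_range.1 (hA h); omega

theorem Tow.hz {m : ℕ} {U : T} {η : S ⟶ U} (hU : Tow a v h S m U η) (Φ : T ⥤ T) [Φ.CommShift ℤ]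
    [Φ.IsTriangulated] {Y : T} : ∀ d, (∀ A ⊆ range m, HZ (Φ.obj S) Y (d + cd a A)) →
      HZ (Φ.obj U) Y d := by
  induction hU with
  | zero =>
    intro d H
    have := H ∅ (empty_subset _)
    rwa [cd, Finset.sum_empty, add_zero] at this
  | @succ m U U' η f i k hU hf hT ih =>
    intro d H g
    refine factor_map hT Φ g ?_ ?_
    · exact ih d (fun A hA => H A (hA.trans (range_subset_range.2 m.le_succ))) _
    · refine HZ.of_iso ((Φ.commShiftIso (a m)).app U).symm (HZ.shift (ih _ fun A hA => ?_))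
      have := H (insert m A) (by
        intro x hx
        rw [mem_insert] at hx
        rcases hx with rfl | hx
        · exact self_mem_range_succ _
        · exact range_subset_range.2 m.le_succ (hA hx))
      rw [cd_insert a hA] at this
      rwa [show a m + (d + 1) + cd a A = d + (a m + 1 + cd a A) by ring]

theorem Tow.hz' {m : ℕ} {U : T} {η : S ⟶ U} (hU : Tow a v h S m U η) (Φ : T ⥤ T) [Φ.CommShift ℤ]
    [Φ.IsTriangulated] {Y : T} : ∀ d, (∀ A ⊆ range m, A ≠ ∅ → HZ (Φ.obj S) Y (d + cd a A)) →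
      ∀ g : (Φ.obj U)⟦d⟧ ⟶ Y, (Φ.map η)⟦d⟧' ≫ g = 0 → g = 0 := by
  induction hU with
  | zero =>
    intro d H g hg
    rwa [CategoryTheory.Functor.map_id, CategoryTheory.Functor.map_id, id_comp] at hg
  | @succ m U U' η f i k hU hf hT ih =>
    intro d H g hg
    refine factor_map hT Φ g ?_ ?_
    · refine ih d (fun A hA => H A (hA.trans (range_subset_range.2 m.le_succ))) _ ?_
      rwa [← assoc, ← Functor.map_comp, ← Functor.map_comp]
    · refine HZ.of_iso ((Φ.commShiftIso (a m)).app U).symm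
        (HZ.shift (hU.hz Φ _ fun A hA => ?_))
      have := H (insert m A) (by
        intro x hx
        rw [mem_insert] at hx
        rcases hx with rfl | hx
        · exact self_mem_range_succ _
        · exact range_subset_range.2 m.le_succ (hA hx)) (insert_ne_empty _ _)
      rw [cd_insert a hA] at this
      rwa [show a m + (d + 1) + cd a A = d + (a m + 1 + cd a A) by ring]

end Tri

end Vale.Agent.P257.V
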